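import Vale.Agent.P066.Lab.QT0
import Vale.Agent.P066.Lab.QT2

/-!
# The middle factor: `QT2out`
-/

set_option autoImplicit false
set_option linter.unusedSectionVars false

open Finset MvPolynomial

namespace Vale.Agent.P066.Lab.QT2

open Vale.Agent.P066.Theta

noncomputable section

/-! ### the two normal forms of Hilbert series -/

theorem ofPowerSeries_even (h : ℕ → ℕ) :
    HahnSeries.ofPowerSeries ℤ ℚ
      (PowerSeries.mk fun m => if Even m then (h (m / 2) : ℚ) else 0) = hilb h := by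
  ext m
  by_cases hm : ∃ k : ℕ, m = 2 * (k : ℤ)
  · obtain ⟨k, rfl⟩ := hm
    rw [coeff_hilb]
    have := HahnSeries.ofPowerSeries_apply_coeff (Γ := ℤ) (R := ℚ)
      (PowerSeries.mk fun m => if Even m then (h (m / 2) : ℚ) else 0) (2 * k)
    push_cast at this
    rw [this, PowerSeries.coeff_mk, if_pos (even_two_mul k)]
    congr 2
    omega
  · have hm' : ∀ k : ℕ, m ≠ 2 * (k : ℤ) := fun k hk => hm ⟨k, hk⟩
    rw [coeff_hilb_of_not _ hm']
    by_cases h0 : 0 ≤ m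
    · obtain ⟨j, rfl⟩ := Int.eq_ofNat_of_zero_le h0
      have := HahnSeries.ofPowerSeries_apply_coeff (Γ := ℤ) (R := ℚ)
        (PowerSeries.mk fun m => if Even m then (h (m / 2) : ℚ) else 0) j
      rw [this, PowerSeries.coeff_mk, if_neg]
      rintro ⟨i, hi⟩
      exact hm' i (by omega)
    · rw [HahnSeries.ofPowerSeries_apply]
      refine HahnSeries.embDomain_of_notMem_range ?_
      rintro ⟨j, hj⟩
      apply h0
      rw [← hj]
      exact Int.natCast_nonneg j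

theorem cN_eq_cq' {n : ℕ} (a : Fin n → Fin n → ℕ) (d : Fin n →₀ ℕ) : cN a d = cq a d := by
  unfold cN cq aN aq
  push_cast
  rfl

theorem hser_eq {n : ℕ} (a : Fin n → Fin n → ℕ) (f : (Fin n →₀ ℕ) → ℕ → ℕ) (d : Fin n →₀ ℕ) :
    hser (cq a d) (f d) = ser a f d := by
  rw [hser, ofPowerSeries_even, ser, cN_eq_cq']
  rfl

/-! ### special values of the Hilbert functions -/

section Special

variable {S : Type} [Fintype S] [DecidableEq S] {ι : Type} [Fintype ι] [DecidableEq ι]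
  (ty : S → ι)

theorem hQ_top (m : ℕ) : hQ ℚ ty (⊤ : Ideal (MvPolynomial S ℚ)) m = 0 := by
  unfold hQ
  have : (AltH ℚ ty m).map
      ((⊤ : Ideal (MvPolynomial S ℚ)).restrictScalars ℚ).mkQ = ⊥ := by
    rw [eq_bot_iff]
    rintro _ ⟨f, -, rfl⟩
    rw [Submodule.mem_bot, Submodule.mkQ_apply, Submodule.Quotient.mk_eq_zero]
    trivial
  rw [this]
  exact finrank_bot ℚ _

theorem hQ_bot (m : ℕ) :
    hQ ℚ ty (⊥ : Ideal (MvPolynomial S ℚ)) m = Module.finrank ℚ (AltH ℚ ty m) := by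
  unfold hQ
  refine LinearEquiv.finrank_eq (Submodule.equivMapOfInjective _ ?_ _).symm
  rw [← LinearMap.ker_eq_bot, Submodule.ker_mkQ]
  rfl

theorem finrank_AltH_empty [IsEmpty S] (m : ℕ) :
    Module.finrank ℚ (AltH ℚ ty m) = if m = 0 then 1 else 0 := by
  unfold AltH
  rw [H422.finrank_Alt]
  split_ifs with h
  · subst h
    rw [card_eq_one]
    refine ⟨fun _ => ∅, ?_⟩
    ext F
    rw [H422.mem_fams, mem_singleton]
    constructor
    · rintro ⟨h1, -⟩
      funext i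
      have := h1 i
      rw [H422.fibCard, univ_eq_empty, filter_empty, card_empty, card_eq_zero] at this
      exact this
    · rintro rfl
      refine ⟨fun i => ?_, by simp⟩
      rw [H422.fibCard, univ_eq_empty, filter_empty]
      rfl
  · rw [card_eq_zero]
    refine eq_empty_of_forall_notMem fun F hF => ?_
    rw [H422.mem_fams] at hF
    obtain ⟨h1, h2⟩ := hF
    apply h
    rw [← h2]
    refine sum_eq_zero fun i _ => ?_
    have := h1 i
    rw [H422.fibCard, univ_eq_empty, filter_empty, card_empty, card_eq_zero] at this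
    rw [this, sum_empty]

end Special

section Values

variable {n : ℕ} (a : Fin n → Fin n → ℕ) (θ : Fin n → ℤ)

theorem wS_univ (d : Fin n →₀ ℕ) : wS (θP θ d) univ = wt θ d := by
  unfold wS θP wt
  rw [Fintype.sum_sigma]
  refine sum_congr rfl fun i _ => ?_
  simp

theorem card_univ_ne {d : Fin n →₀ ℕ} (hd : d ≠ 0) : (univ : Finset (Pt d)) ≠ ∅ := by
  intro h
  apply hd
  ext i
  by_contra hi
  have : (⟨i, ⟨0, Nat.pos_of_ne_zero hi⟩⟩ : Pt d) ∈ (univ : Finset (Pt d)) := mem_univ _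
  rw [h] at this
  exact absurd this (notMem_empty _)

instance : IsEmpty (Pt (0 : Fin n →₀ ℕ)) := ⟨fun x => x.2.elim0⟩

theorem KX_empty_left {S : Type} [Fintype S] [DecidableEq S] (b : S → S → ℕ) (B : Finset S) :
    KX ℚ b B ∅ = 1 := by
  simp [KX, QP]

theorem KX_self {S : Type} [Fintype S] [DecidableEq S] (b : S → S → ℕ) (B : Finset S) :
    KX ℚ b B B = 1 := by
  simp [KX, QP]

theorem hRp_unst {d : Fin n →₀ ℕ} (hd : d ≠ 0) (hw : ¬ 0 < wt θ d) (m : ℕ) :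
    hRp a θ d m = 0 := by
  have : Jp ℚ (aP a d) (θP θ d) univ = ⊤ := by
    rw [Ideal.eq_top_iff_one]
    refine Ideal.subset_span ⟨∅, empty_subset _, (card_univ_ne hd).symm, ?_,
      (KX_empty_left _ _).symm⟩
    rw [sdiff_empty, wS_univ]
    exact not_lt.1 hw
  rw [hRp, this, hQ_top]

theorem hRm_unst {d : Fin n →₀ ℕ} (hd : d ≠ 0) (hw : ¬ wt θ d < 0) (m : ℕ) :
    hRm a θ d m = 0 := by
  have : Jm ℚ (aP a d) (θP θ d) univ = ⊤ := by
    rw [Ideal.eq_top_iff_one]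
    refine Ideal.subset_span ⟨univ, Subset.rfl, card_univ_ne hd, ?_, (KX_self _ _).symm⟩
    rw [wS_univ]
    exact not_lt.1 hw
  rw [hRm, this, hQ_top]

theorem hRp_zero (m : ℕ) : hRp a θ 0 m = if m = 0 then 1 else 0 := by
  have : Jp ℚ (aP a 0) (θP θ 0) univ = ⊥ := by
    rw [Jp, Ideal.span_eq_bot]
    rintro f ⟨X, -, h, -⟩
    exact absurd (Subsingleton.elim X univ) h
  rw [hRp, this, hQ_bot, finrank_AltH_empty]

theorem hR0_zero (m : ℕ) : hR0 a θ 0 m = if m = 0 then 1 else 0 := by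
  have : J0 ℚ (aP a 0) (θP θ 0) univ = ⊥ := by
    rw [J0, Ideal.span_eq_bot]
    rintro f ⟨X, -, h, -⟩
    rw [Subsingleton.elim X univ, wS_univ, wt_zero] at h
    exact absurd h (lt_irrefl _)
  rw [hR0, this, hQ_bot, finrank_AltH_empty]

theorem hRm_zero (m : ℕ) : hRm a θ 0 m = if m = 0 then 1 else 0 := by
  have : Jm ℚ (aP a 0) (θP θ 0) univ = ⊥ := by
    rw [Jm, Ideal.span_eq_bot]
    rintro f ⟨X, -, h, -⟩
    exact absurd (Subsingleton.elim X ∅) h
  rw [hRm, this, hQ_bot, finrank_AltH_empty]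

/-- `hR0` on the classes of weight zero -/
def hR0' (d : Fin n →₀ ℕ) (m : ℕ) : ℕ := if wt θ d = 0 then hR0 a θ d m else 0

theorem supp_p : Supp θ (fun w => 0 < w) (hRp a θ) :=
  ⟨hRp_zero a θ, fun _ hd hw => hRp_unst a θ hd hw⟩

theorem supp_m : Supp θ (fun w => w < 0) (hRm a θ) :=
  ⟨hRm_zero a θ, fun _ hd hw => hRm_unst a θ hd hw⟩

theorem supp_0 : Supp θ (fun w => w = 0) (hR0' a θ) :=
  ⟨fun k => by rw [hR0', if_pos (wt_zero θ), hR0_zero], fun _ _ hw k => if_neg hw⟩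

end Values

/-! ### the recursion -/

theorem coeff_triple (A k : ℕ) (f g h : ℕ → ℕ) :
    PowerSeries.coeff k (PowerSeries.X ^ A *
      (PowerSeries.mk f * PowerSeries.mk g * PowerSeries.mk h) : PowerSeries ℕ) =
      ∑ t ∈ tri A k, f t.1 * g t.2.1 * h t.2.2 := by
  rw [PowerSeries.coeff_X_pow_mul']
  split_ifs with hA
  · rw [PowerSeries.coeff_mul]
    simp only [PowerSeries.coeff_mul, PowerSeries.coeff_mk, sum_mul]
    rw [sum_sigma']
    refine sum_nbij' (fun x => (x.2.1, x.2.2, x.1.2))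
      (fun t => ⟨(t.1 + t.2.1, t.2.2), (t.1, t.2.1)⟩) ?_ ?_ ?_ ?_ ?_
    · rintro ⟨⟨i, j⟩, ⟨i1, i2⟩⟩ hx
      simp only [mem_sigma, HasAntidiagonal.mem_antidiagonal] at hx
      rw [mem_tri]
      simp only
      lia
    · rintro ⟨t1, t2, t3⟩ ht
      rw [mem_tri] at ht
      simp only at ht
      simp only [mem_sigma, HasAntidiagonal.mem_antidiagonal, and_true]
      lia
    · rintro ⟨⟨i, j⟩, ⟨i1, i2⟩⟩ hx
      simp only [mem_sigma, HasAntidiagonal.mem_antidiagonal] at hx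
      obtain ⟨-, rfl⟩ := hx
      rfl
    · rintro ⟨t1, t2, t3⟩ ht
      rfl
    · rintro ⟨⟨i, j⟩, ⟨i1, i2⟩⟩ hx
      rfl
  · have : tri A k = ∅ := eq_empty_of_forall_notMem fun t ht => by
      rw [mem_tri] at ht
      lia
    simp [this]

theorem sum_anti_assoc {n : ℕ} {M : Type*} [AddCommMonoid M] (d : Fin n →₀ ℕ)
    (G : (Fin n →₀ ℕ) → (Fin n →₀ ℕ) → (Fin n →₀ ℕ) → M) :
    ∑ p ∈ antidiagonal d, ∑ p' ∈ antidiagonal p.2, G p.1 p'.1 p'.2 =
      ∑ x ∈ antidiagonal d, ∑ y ∈ antidiagonal x.1, G y.1 y.2 x.2 := by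
  rw [sum_sigma', sum_sigma']
  refine sum_nbij' (fun x => ⟨(x.1.1 + x.2.1, x.2.2), (x.1.1, x.2.1)⟩)
    (fun x => ⟨(x.2.1, x.2.2 + x.1.2), (x.2.2, x.1.2)⟩) ?_ ?_ ?_ ?_ ?_
  · rintro ⟨⟨i, j⟩, ⟨k, l⟩⟩ h
    simp only [mem_sigma, HasAntidiagonal.mem_antidiagonal] at h ⊢
    exact ⟨by rw [add_assoc, h.2, h.1], trivial⟩
  · rintro ⟨⟨i, j⟩, ⟨k, l⟩⟩ h
    simp only [mem_sigma, HasAntidiagonal.mem_antidiagonal] at h ⊢
    exact ⟨by rw [← add_assoc, h.2, h.1], trivial⟩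
  · rintro ⟨⟨i, j⟩, ⟨k, l⟩⟩ h
    simp only [mem_sigma, HasAntidiagonal.mem_antidiagonal] at h
    obtain ⟨-, rfl⟩ := h
    rfl
  · rintro ⟨⟨i, j⟩, ⟨k, l⟩⟩ h
    simp only [mem_sigma, HasAntidiagonal.mem_antidiagonal] at h
    obtain ⟨-, rfl⟩ := h
    rfl
  · rintro ⟨⟨i, j⟩, ⟨k, l⟩⟩ h
    rfl

theorem hnrec_of (hLA : LAout) {n : ℕ} (a : Fin n → Fin n → ℕ) (θ : Fin n → ℤ) :
    HNrec a (fun d => hP d) (hRp a θ) (hR0' a θ) (hRm a θ) := by
  intro d k
  have h := congrArg (PowerSeries.coeff k) (hLA n a θ d)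
  rw [PowerSeries.coeff_mk, sum_anti_assoc d (fun d1 d2 d3 => if Theta.wt θ d2 = 0 then
        PowerSeries.X ^ (arD a d1 d2 + arD a d1 d3 + arD a d2 d3) *
          (PowerSeries.mk (hRp a θ d1) * PowerSeries.mk (hR0 a θ d2) *
            PowerSeries.mk (hRm a θ d3))
      else 0), map_sum] at h
  refine h.trans ?_
  refine sum_congr rfl fun x _ => ?_
  rw [map_sum]
  refine sum_congr rfl fun y _ => ?_
  split_ifs with hw
  · rw [coeff_triple]
    refine sum_congr rfl fun t _ => ?_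
    rw [hR0', if_pos hw]
  · rw [map_zero]
    symm
    refine sum_eq_zero fun t _ => ?_
    rw [hR0', if_neg hw, mul_zero, zero_mul]

/-- **QT2**. -/
theorem qt2out : QT2out := by
  intro hLA n a θ A hA gp g0 gm hT d hd
  have := (triple_ser a toL_v (hnrec_of hLA a θ) (supp_p a θ) (supp_0 a θ) (supp_m a θ)
    (fun d => by rw [hA d, ← hser_eq a (fun d => hP d)]) hT d).2.1
  rw [this, hser_eq a (hR0 a θ), ser, ser]
  congr 2
  funext k
  rw [hR0', if_pos hd]

end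

end Vale.Agent.P066.Lab.QT2
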