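import Vale.Agent.P066.Lab.QT2
import Vale.Agent.P066.Lab.QT1b
import Vale.Agent.P066.H347.Multi

/-!
# The finite quiver theorem from the numerical output of the labelled form

`LabOut SGn a θ`: the numbers `P d k` (graded dimensions of the antisymmetric polynomials) satisfy
the Harder-Narasimhan recursion, and the slope zero part counts the words of a graded alphabet.
-/

set_option autoImplicit false

open Finset

namespace Vale.Agent.P066.Lab.QT2

open Vale.Agent.P066.Theta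

noncomputable section

/-- Numerical output of the labelled form, `nS m k` = number of `m`-element subsets of `ℕ` with
sum `k`. -/
def LabOut (nS : ℕ → ℕ → ℕ) {n : ℕ} (a : Fin n → Fin n → ℕ) (θ : Fin n → ℤ) : Prop :=
  ∃ (P rp r0 rm : (Fin n →₀ ℕ) → ℕ → ℕ) (S : H347.MAlph n),
    (∀ d, hilb (P d) = ∏ i, hilb (nS (d i))) ∧ HNrec a P rp r0 rm ∧
    Supp θ (fun w => 0 < w) rp ∧ Supp θ (fun w => w = 0) r0 ∧ Supp θ (fun w => w < 0) rm ∧
    (∀ y, wt θ (S.k y) = 0) ∧ (∀ D, {y | deg (S.k y) ≤ D}.Finite) ∧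
    (∀ d, wt θ d = 0 → (∀ k : ℕ, r0 d k = S.loop.num d (cN a d + 2 * (k : ℤ))) ∧
      ∀ μ : S.loop.Word, S.loop.cls μ = d → ∃ k : ℕ, S.loop.deg μ = cN a d + 2 * (k : ℤ))

theorem cN_eq_cq {n : ℕ} (a : Fin n → Fin n → ℕ) (d : Fin n →₀ ℕ) : cN a d = cq a d := by
  unfold cN cq aN aq
  push_cast
  rfl

theorem num_eq_zero {n : ℕ} {T : H347.MAlph n} {d : Fin n →₀ ℕ} {N : ℤ}
    (h : ∀ μ : T.Word, T.cls μ = d → T.deg μ ≠ N) : T.num d N = 0 := by
  rw [H347.Alph.num, card_eq_zero, Set.Finite.toFinset_eq_empty,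
    Set.eq_empty_iff_forall_notMem]
  rintro μ ⟨h1, h2⟩
  exact h μ h1 h2

theorem wt_cls {n : ℕ} {T : H347.MAlph n} {θ : Fin n → ℤ} (h : ∀ y, wt θ (T.k y) = 0)
    (μ : T.Word) : wt θ (T.cls μ) = 0 := by
  classical
  unfold H347.Alph.cls Finsupp.sum
  have hs : ∀ s : Finset T.A, wt θ (∑ a ∈ s, μ.m a • T.k a) = 0 := by
    intro s
    induction s using Finset.induction_on with
    | empty => simp
    | insert b s hb ih =>
      rw [sum_insert hb, wt_add, ih, add_zero]
      have : ∀ j : ℕ, wt θ (j • T.k b) = 0 := by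
        intro j
        induction j with
        | zero => simp
        | succ j ihj => rw [succ_nsmul, wt_add, ihj, h, add_zero]
      exact this _
  exact hs _

/-- **The finite quiver theorem**, from the numerical output of the labelled form. -/
theorem quiverTheorem_of (nS : ℕ → ℕ → ℕ)
    (hf : ∀ m : ℕ, toL (epsCoeff false m) = uL ^ (m : ℤ) * hilb (nS m))
    (ht : ∀ m : ℕ, toL (epsCoeff true m) = uL ^ ((m : ℤ) - (m : ℤ) ^ 2) * hilb (nS m))
    (H : ∀ (n : ℕ) (a : Fin n → Fin n → ℕ) (θ : Fin n → ℤ), (∀ i j, i < j → a i j = 0) →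
      (∀ i, a i i ≤ 1) →
      (∀ d d' : Fin n →₀ ℕ, wt θ d = 0 → wt θ d' = 0 → aN a d d' = aN a d' d) →
      LabOut nS a θ) : QuiverTheorem := by
  intro n a e ha he θ hsym Ap A0 Am hT D
  have h1 : ∀ i, a i i ≤ 1 := fun i => by rw [he i]; split_ifs <;> simp
  obtain ⟨P, rp, r0, rm, S, hP, hHN, hp, h0, hm, hS, hfin, hr⟩ := H n a θ ha h1 (by
    intro d d' hd hd'
    have := hsym d d' hd hd'
    rw [omega_quivB] at this
    have : (aN a d' d : ℤ) = aN a d d' := by linarith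
    exact_mod_cast this.symm)
  have hF : ∀ d, toL (quivProd a e d) = ser a P d := by
    intro d
    rw [quivProd_eq a e he, ser, hP, cN_eq_cq]
    exact toL_Aq a ha h1 (fun m => hilb (nS m)) hf ht d
  have key : ∀ d, toL (A0 d) = ser a r0 d := fun d =>
    (triple_ser a toL_v hHN hp h0 hm hF hT d).2.1
  let Z : AddSubmonoid (Fin n →₀ ℕ) :=
    { carrier := {d | wt θ d = 0}
      zero_mem' := by simp
      add_mem' := fun {x y} hx hy => by
        show wt θ (x + y) = 0
        rw [wt_add, show wt θ x = 0 from hx, show wt θ y = 0 from hy, add_zero] }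
  obtain ⟨l, hl, hl'⟩ := H347.exists_units (quivB a) toL (by
    rw [toL_v, uL_inv]) Z (fun d hd d' hd' => hsym d d' hd hd') S hS D (hfin D)
  refine ⟨l, hl, fun γ hγ => toL_injective ?_⟩
  rw [key, hl' γ hγ]
  ext m
  rw [H347.Alph.coeff_gen, ser, show uu = uL from rfl, uL_zpow, HahnSeries.coeff_single_mul,
    one_mul]
  have hSl : ∀ y, wt θ (S.loop.k y) = 0 := fun y => hS y.1
  by_cases hw : wt θ γ = 0
  · obtain ⟨r1, r2⟩ := hr γ hw
    by_cases hk : ∃ k : ℕ, m - cN a γ = 2 * (k : ℤ)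
    · obtain ⟨k, hk⟩ := hk
      rw [hk, coeff_hilb, r1 k, show m = cN a γ + 2 * (k : ℤ) by linarith]
    · rw [coeff_hilb_of_not _ (fun k h => hk ⟨k, h⟩), num_eq_zero, Nat.cast_zero]
      intro μ hμ h
      obtain ⟨k, hk'⟩ := r2 μ hμ
      exact hk ⟨k, by rw [← h, hk']; ring⟩
  · have hγ0 : γ ≠ 0 := by
      rintro rfl
      simp at hw
    rw [show r0 γ = fun _ => 0 from funext (h0.supp γ hγ0 hw), hilb_zero, num_eq_zero,
      Nat.cast_zero]
    · rfl
    · intro μ hμ _
      exact hw (hμ ▸ wt_cls hSl μ)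

end

end Vale.Agent.P066.Lab.QT2
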